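import Mathlib
import Vale.Agent.P058.Defs
import Vale.Agent.P058.KiteRamsey
import Vale.Agent.P058.NonSub

/-! A finite Ramsey set need not be subtransitive. -/

namespace Vale.Agent.Results.P058.RamseyNotSubtransitive

open Vale.Agent.P058

theorem result :
    (∀ a : ℝ, 0 < a → a < 1 → IsRamsey (kite a)) ∧
    (∀ a : ℝ, 0 < a → a < 1 → Transcendental ℚ a → ¬ IsSubtransitive (kite a)) ∧
    (∃ A : Set (EuclideanSpace ℝ (Fin 2)), A.Finite ∧ A.Nonempty ∧
      IsRamsey A ∧ ¬ IsSubtransitive A) ∧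
    ¬ ∀ (d : ℕ) (A : Set (EuclideanSpace ℝ (Fin d))), A.Finite → A.Nonempty →
      (IsRamsey A ↔ IsSubtransitive A) := by
  obtain ⟨a, ha, ha1, htr⟩ := exists_transcendental_Ioo
  have hR := kite_isRamsey ha ha1
  have hS := kite_not_subtransitive ha ha1 htr
  refine ⟨fun b hb hb1 => kite_isRamsey hb hb1,
    fun b hb hb1 hbt => kite_not_subtransitive hb hb1 hbt,
    ⟨kite a, hR.1, hR.2.1, hR, hS⟩, fun h => hS ((h 2 (kite a) hR.1 hR.2.1).1 hR)⟩

end Vale.Agent.Results.P058.RamseyNotSubtransitive
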